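import Vale.Agent.P047CJ.Core

/-!
P047: the square-root bound (even with the constant of majority) for Boolean functions of conical
junta degree at most `d`.
-/

namespace Vale.Agent.Results.P047.ConicalJunta

open Vale.Agent.P047CJ

/-- If `f` is Boolean and both `(1 + f) / 2` and `(1 - f) / 2` are conical juntas of degree at most
`d` (nonnegative combinations of indicators of subcubes of codimension at most `d`; for instance
if the cube can be partitioned into subcubes of codimension at most `d` on which `f` is constant),
then `∑ i, f^({i}) ≤ B_d ≤ √d`. -/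
theorem result (n d : ℕ) (f : (Fin n → Bool) → ℝ) (hf : ∀ x, f x = 1 ∨ f x = -1)
    (h1 : IsConicalJunta d (fun x => (1 + f x) / 2))
    (h2 : IsConicalJunta d (fun x => (1 - f x) / 2)) :
    ∑ i, coef f i ≤ Bd d ∧ Bd d ≤ √d ∧ ∑ i, coef f i ≤ √d := by
  have h := main f h1 h2
  exact ⟨h, Bd_le_sqrt d, h.trans (Bd_le_sqrt d)⟩

end Vale.Agent.Results.P047.ConicalJunta
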